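import Vale.Agent.P336.H887.Average
import Vale.Agent.P336.H567.Corr

/-!
# P336: the correlation bound for a good seed

`fB a x` is the Boolean function `⨁_{(i,j,k)} a i j k ∧ y (i, inl j) ∧ y (i, inr k)` where
`y v` is the parity of the block `x (v, ·)`.
-/

set_option linter.unusedSectionVars false

namespace Vale.Agent.P336.Moment

open Finset Vale.Agent.P336.Expansion

noncomputable section

variable {G U : Type} [Fintype G] [DecidableEq G] [Fintype U] [DecidableEq U]

/-- The Boolean value of the bilinear form with seed `a`. -/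
def bB (a : G × U × U → Bool) (z : G × (U ⊕ U) → Bool) : Bool :=
  decide (Odd (univ.filter fun p => (a p && cor z p) = true).card)

/-- The function on the blocks. -/
def fB {b : ℕ} (a : G × U × U → Bool) (x : (G × (U ⊕ U)) × Fin b → Bool) : Bool :=
  bB a (yv parity x)

theorem hB_eq (a : G × U × U → Bool) (z : G × (U ⊕ U) → Bool) :
    hB a z = if bB a z = true then -1 else 1 := by
  rw [hB, prod_ite, prod_const, prod_const_one, mul_one, bB]
  by_cases h : Odd (univ.filter fun p => (a p && cor z p) = true).card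
  · rw [h.neg_one_pow, if_pos (by simpa using h)]
  · rw [(Nat.not_odd_iff_even.1 h).neg_one_pow, if_neg (by simpa using h)]

theorem sgn_fB {b : ℕ} (a : G × U × U → Bool) :
    sgn (fB (b := b) a) = fun x => -hB a (yv parity x) := by
  funext x
  rw [sgn, hB_eq, fB]
  split_ifs <;> norm_num

theorem sgn_not_fB {b : ℕ} (a : G × U × U → Bool) :
    sgn (fun x => !(fB (b := b) a x)) = fun x => hB a (yv parity x) := by
  funext x
  rw [sgn, hB_eq, fB]
  cases bB a (yv parity x) <;> simp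

theorem Corr.neg {V : Type} [Fintype V] [DecidableEq V] {g : (V → Bool) → ℝ} {k : ℕ} {δ : ℝ}
    (h : Corr g k δ) : Corr (fun x => -g x) k δ := by
  intro M C hC
  have h1 := h M C hC
  simp only [neg_mul, sum_neg_distrib, abs_neg]
  exact h1

/-- **Correlation bound for a good seed**. -/
theorem corr_seed {t K P b k n Q : ℕ} (ht : 1 ≤ t) (hb : 0 < b) (hk : 12 * k ≤ b * t)
    (hsp : ∀ (C : ℕ → Cl (G × (U ⊕ U))) (J : Finset (G × (U ⊕ U))) (y : G × (U ⊕ U) → Bool)
      (I : Finset ℕ), (∀ i ∈ I, (C i).S.card ≤ t) → SparseDec t K P C J y I)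
    (hn : Even n)
    (hcard : 4 ^ Fintype.card (G × (U ⊕ U)) *
      (1 + (1 + 2 * Fintype.card (G × (U ⊕ U))) ^ t) ^ K < 2 ^ (n * Q))
    {δ : ℝ} (hδ : 2 * P * 2 ^ (Fintype.card G * n + Q + Fintype.card G) *
      (3 / 4 : ℝ) ^ (Fintype.card G * Fintype.card U) ≤ δ) :
    ∃ a : G × U × U → Bool,
      Corr (fun x : (G × (U ⊕ U)) × Fin b → Bool => hB a (yv parity x)) k δ := by
  obtain ⟨a, ha⟩ := good_seed n Q hn (FF (G × (U ⊕ U)) t K)
    (fun p hp => by
      obtain ⟨y, hy⟩ := FF_agree hp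
      exact ⟨y, fun z hz v hv => mem_cube.1 (hy hz) v hv⟩)
    (lt_of_le_of_lt (card_FF t K) hcard)
  refine ⟨a, corr_of_good ht hb hk hsp (hB a)
    (fun J => 2 ^ (mx J + Fintype.card G * n + Q)) ?_ (fun J => by positivity) ha (le_trans ?_ hδ)⟩
  · intro J J' hJ
    refine pow_le_pow_right₀ (by norm_num) ?_
    have := mx_mono hJ
    omega
  · have h1 : ∑ J : Finset (G × (U ⊕ U)), (1 / 2 : ℝ) ^ J.card *
        2 ^ (mx J + Fintype.card G * n + Q) = 2 ^ (Fintype.card G * n + Q) *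
        ∑ J : Finset (G × (U ⊕ U)), (1 / 2 : ℝ) ^ J.card * 2 ^ mx J := by
      rw [mul_sum]
      refine sum_congr rfl fun J _ => ?_
      rw [add_assoc, pow_add]
      ring
    rw [h1]
    have h2 := sum_mx_le (G := G) (U := U)
    have h3 : (2 : ℝ) ^ Fintype.card (G × (U ⊕ U)) =
        4 ^ (Fintype.card G * Fintype.card U) := by
      rw [Fintype.card_prod, Fintype.card_sum, show (4 : ℝ) = 2 ^ 2 by norm_num, ← pow_mul]
      congr 1
      ring
    rw [h3]
    calc 2 / 4 ^ (Fintype.card G * Fintype.card U) * ((P : ℝ) *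
          (2 ^ (Fintype.card G * n + Q) *
            ∑ J : Finset (G × (U ⊕ U)), (1 / 2 : ℝ) ^ J.card * 2 ^ mx J))
        ≤ 2 / 4 ^ (Fintype.card G * Fintype.card U) * ((P : ℝ) *
          (2 ^ (Fintype.card G * n + Q) * (2 * 3 ^ Fintype.card U) ^ Fintype.card G)) := by
          gcongr
      _ = 2 * P * 2 ^ (Fintype.card G * n + Q + Fintype.card G) *
          (3 / 4 : ℝ) ^ (Fintype.card G * Fintype.card U) := by
          rw [mul_pow, ← pow_mul, mul_comm (Fintype.card U), div_pow, pow_add _ _ (Fintype.card G)]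
          ring

/-- The lower bound for the function with a good seed, and for its complement. -/
theorem S3_seed {t K P b k n Q ℓ : ℕ} (ht : 1 ≤ t) (hb : 0 < b) (hk : 12 * k ≤ b * t)
    (hsp : ∀ (C : ℕ → Cl (G × (U ⊕ U))) (J : Finset (G × (U ⊕ U))) (y : G × (U ⊕ U) → Bool)
      (I : Finset ℕ), (∀ i ∈ I, (C i).S.card ≤ t) → SparseDec t K P C J y I)
    (hn : Even n)
    (hcard : 4 ^ Fintype.card (G × (U ⊕ U)) *
      (1 + (1 + 2 * Fintype.card (G × (U ⊕ U))) ^ t) ^ K < 2 ^ (n * Q))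
    {δ : ℝ} (hδ : 2 * P * 2 ^ (Fintype.card G * n + Q + Fintype.card G) *
      (3 / 4 : ℝ) ^ (Fintype.card G * Fintype.card U) ≤ δ) (hδ2 : δ ≤ 1 / 2)
    (e : (G × (U ⊕ U)) × Fin b ≃ Fin ℓ) :
    ∃ a : G × U × U → Bool,
      1 / 4 ≤ S3 (fun x : Fin ℓ → Bool => fB a fun v => x (e v)) * δ +
        (S3 (fun x : Fin ℓ → Bool => fB a fun v => x (e v)) : ℝ) ^ 2 / 2 ^ k ∧
      1 / 4 ≤ S3 (fun x : Fin ℓ → Bool => !(fB a fun v => x (e v))) * δ +
        (S3 (fun x : Fin ℓ → Bool => !(fB a fun v => x (e v))) : ℝ) ^ 2 / 2 ^ k := by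
  obtain ⟨a, ha⟩ := corr_seed (G := G) (U := U) (b := b) ht hb hk hsp hn hcard hδ
  refine ⟨a, S3_of_corr' e (fB a) hδ2 ?_, S3_of_corr' e (fun x => !(fB a x)) hδ2 ?_⟩
  · rw [sgn_fB]
    exact Corr.neg ha
  · rw [sgn_not_fB]
    exact ha

end

end Vale.Agent.P336.Moment
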