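import Mathlib

/-!
# P336: moment bound for block-diagonal bilinear forms

Variables `W = G × (U ⊕ U)`; seed `a : G × U × U → Bool`;
`hB a z = ∏_{(i,j,k)} (-1)^{a i j k * z (i, inl j) * z (i, inr k)}`.
-/

set_option linter.unusedSectionVars false

namespace Vale.Agent.P336.Moment

open Finset

noncomputable section

variable {G U : Type} [Fintype G] [DecidableEq G] [Fintype U] [DecidableEq U]

/-- The product of the two coordinates of `z` belonging to the entry `p` of the seed. -/
def cor (z : G × (U ⊕ U) → Bool) (p : G × U × U) : Bool :=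
  z (p.1, Sum.inl p.2.1) && z (p.1, Sum.inr p.2.2)

/-- The function with seed `a`: the sign of a block-diagonal bilinear form. -/
def hB (a : G × U × U → Bool) (z : G × (U ⊕ U) → Bool) : ℝ :=
  ∏ p : G × U × U, if (a p && cor z p) = true then (-1 : ℝ) else 1

/-- The tuples all of whose parity constraints are even. -/
def Ev (n : ℕ) (w : Fin n → (G × (U ⊕ U) → Bool)) : Prop :=
  ∀ p : G × U × U, Even (univ.filter fun l => cor (w l) p = true).card

open Classical in
theorem moment_eq (n : ℕ) (S : Finset (G × (U ⊕ U) → Bool)) :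
    ∑ a : G × U × U → Bool, (∑ z ∈ S, hB a z) ^ n =
      2 ^ Fintype.card (G × U × U) *
        (((Fintype.piFinset fun _ : Fin n => S).filter (Ev n)).card : ℝ) := by
  have h1 : ∀ a : G × U × U → Bool, (∑ z ∈ S, hB a z) ^ n =
      ∑ w ∈ Fintype.piFinset fun _ : Fin n => S, ∏ p : G × U × U, ∏ l : Fin n,
        (if (a p && cor (w l) p) = true then (-1 : ℝ) else 1) := by
    intro a
    have : (∑ z ∈ S, hB a z) ^ n = ∏ _l : Fin n, ∑ z ∈ S, hB a z := by simp
    rw [this, Finset.prod_univ_sum]
    refine sum_congr rfl fun w _ => ?_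
    simp only [hB]
    rw [prod_comm]
  simp only [h1]
  rw [sum_comm]
  have h2 : ∀ w : Fin n → (G × (U ⊕ U) → Bool),
      ∑ a : G × U × U → Bool, ∏ p : G × U × U, ∏ l : Fin n,
        (if (a p && cor (w l) p) = true then (-1 : ℝ) else 1) =
      if Ev n w then 2 ^ Fintype.card (G × U × U) else 0 := by
    intro w
    have h3 := Finset.prod_univ_sum (fun _ : G × U × U => (univ : Finset Bool))
      (fun p b => ∏ l : Fin n, (if (b && cor (w l) p) = true then (-1 : ℝ) else 1))
    rw [Fintype.piFinset_univ] at h3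
    rw [← h3]
    have h4 : ∀ p : G × U × U, ∑ b : Bool, ∏ l : Fin n,
        (if (b && cor (w l) p) = true then (-1 : ℝ) else 1) =
        if Even (univ.filter fun l => cor (w l) p = true).card then 2 else 0 := by
      intro p
      rw [Fintype.sum_bool]
      simp only [Bool.true_and, Bool.false_and, Bool.false_eq_true, if_false, prod_const_one]
      rw [prod_ite, prod_const, prod_const_one, mul_one]
      split_ifs with h
      · rw [h.neg_one_pow]; norm_num
      · rw [(Nat.not_even_iff_odd.1 h).neg_one_pow]; norm_num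
    simp only [h4]
    by_cases hE : Ev n w
    · rw [if_pos hE, prod_congr rfl (fun p _ => if_pos (hE p)), prod_const, card_univ]
    · rw [if_neg hE]
      obtain ⟨p, hp⟩ := not_forall.1 hE
      exact prod_eq_zero (mem_univ p) (if_neg hp)
  simp only [h2]
  rw [← sum_filter, sum_const, nsmul_eq_mul, mul_comm]


/-! ### Counting the tuples -/

/-- The dot product as a bilinear form. -/
abbrev dotF (n : ℕ) : LinearMap.BilinForm (ZMod 2) (Fin n → ZMod 2) :=
  Matrix.toBilin' (1 : Matrix (Fin n) (Fin n) (ZMod 2))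

theorem dotF_apply {n : ℕ} (u v : Fin n → ZMod 2) : dotF n u v = ∑ l, u l * v l := by
  rw [dotF, Matrix.toBilin'_apply', Matrix.one_mulVec, dotProduct]

open Classical in
/-- The points of a subspace. -/
def pts {n : ℕ} (L : Submodule (ZMod 2) (Fin n → ZMod 2)) : Finset (Fin n → ZMod 2) :=
  univ.filter fun c => c ∈ L

theorem mem_pts {n : ℕ} {L : Submodule (ZMod 2) (Fin n → ZMod 2)} {c : Fin n → ZMod 2} :
    c ∈ pts L ↔ c ∈ L := by simp [pts]

theorem card_pts {n : ℕ} (L : Submodule (ZMod 2) (Fin n → ZMod 2)) :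
    (pts L).card = 2 ^ Module.finrank (ZMod 2) L := by
  classical
  have h1 := Module.card_eq_pow_finrank (K := ZMod 2) (V := L)
  rw [ZMod.card] at h1
  rw [← h1, pts, Fintype.card_subtype]

theorem card_pts_mul {n : ℕ} (L : Submodule (ZMod 2) (Fin n → ZMod 2)) :
    (pts L).card * (pts ((dotF n).orthogonal L)).card = 2 ^ n := by
  have hnd : (dotF n).Nondegenerate := by
    refine Matrix.Nondegenerate.toBilin' (Matrix.nondegenerate_of_det_ne_zero ?_)
    rw [Matrix.det_one]
    exact one_ne_zero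
  have h1 := LinearMap.BilinForm.finrank_orthogonal hnd L
  have h2 : Module.finrank (ZMod 2) L ≤ Module.finrank (ZMod 2) (Fin n → ZMod 2) :=
    Submodule.finrank_le L
  rw [Module.finrank_fin_fun] at h1 h2
  rw [card_pts, card_pts, h1, ← pow_add]
  congr 1
  omega

theorem exists_span {n : ℕ} (L : Submodule (ZMod 2) (Fin n → ZMod 2)) :
    ∃ t : Fin n → (Fin n → ZMod 2), Submodule.span (ZMod 2) (Set.range t) = L := by
  have h2 : Module.finrank (ZMod 2) L ≤ n := by
    have := Submodule.finrank_le L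
    rwa [Module.finrank_fin_fun] at this
  let B := Module.finBasis (ZMod 2) L
  refine ⟨fun l => if h : (l : ℕ) < Module.finrank (ZMod 2) L then (B ⟨l, h⟩ : Fin n → ZMod 2)
    else 0, le_antisymm ?_ ?_⟩
  · rw [Submodule.span_le]
    rintro _ ⟨l, rfl⟩
    simp only
    split_ifs with h
    · exact (B ⟨l, h⟩).2
    · exact L.zero_mem
  · intro v hv
    have h3 := congrArg (Subtype.val) (B.sum_repr ⟨v, hv⟩)
    simp only [Submodule.coe_sum, Submodule.coe_smul] at h3
    rw [← h3]
    refine Submodule.sum_mem _ fun i _ => Submodule.smul_mem _ _ (Submodule.subset_span ?_)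
    refine ⟨⟨i, lt_of_lt_of_le i.2 h2⟩, ?_⟩
    simp

/-- The column of the variable `v` in a tuple of assignments. -/
def col {n : ℕ} (w : Fin n → (G × (U ⊕ U) → Bool)) (v : G × (U ⊕ U)) : Fin n → ZMod 2 :=
  fun l => if w l v = true then 1 else 0

theorem col_injective {n : ℕ} : Function.Injective (col (G := G) (U := U) (n := n)) := by
  intro w w' h
  funext l v
  have h1 := congrFun (congrFun h v) l
  simp only [col] at h1
  cases h2 : w l v <;> cases h3 : w' l v <;> simp [h2, h3] at h1 ⊢

theorem dot_col {n : ℕ} {w : Fin n → (G × (U ⊕ U) → Bool)} (hw : Ev n w) (i : G) (j k : U) :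
    dotF n (col w (i, Sum.inl j)) (col w (i, Sum.inr k)) = 0 := by
  rw [dotF_apply]
  have h1 : ∀ l : Fin n, col w (i, Sum.inl j) l * col w (i, Sum.inr k) l =
      if cor (w l) (i, j, k) = true then 1 else 0 := by
    intro l
    simp only [col, cor, Bool.and_eq_true]
    by_cases h1 : w l (i, Sum.inl j) = true
    · by_cases h2 : w l (i, Sum.inr k) = true
      · rw [if_pos h1, if_pos h2, if_pos ⟨h1, h2⟩, mul_one]
      · have h3 : ¬ (w l (i, Sum.inl j) = true ∧ w l (i, Sum.inr k) = true) := fun h => h2 h.2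
        rw [if_neg h2, if_neg h3, mul_zero]
    · have h3 : ¬ (w l (i, Sum.inl j) = true ∧ w l (i, Sum.inr k) = true) := fun h => h1 h.1
      rw [if_neg h1, if_neg h3, zero_mul]
  simp only [h1]
  rw [← Finset.sum_filter, Finset.sum_const, nsmul_eq_mul, mul_one]
  exact (ZMod.natCast_eq_zero_iff_even).2 (hw (i, j, k))

/-- The allowed columns. -/
def TT {n : ℕ} (t : G → Fin n → (Fin n → ZMod 2)) (J : Finset (G × (U ⊕ U)))
    (y : G × (U ⊕ U) → Bool) (v : G × (U ⊕ U)) : Finset (Fin n → ZMod 2) :=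
  if v ∈ J then
    Sum.elim (fun _ => pts (Submodule.span (ZMod 2) (Set.range (t v.1))))
      (fun _ => pts ((dotF n).orthogonal (Submodule.span (ZMod 2) (Set.range (t v.1))))) v.2
  else {fun _ => if y v = true then 1 else 0}

/-- Number of alive variables of the left half of the group `i`. -/
def pU (J : Finset (G × (U ⊕ U))) (i : G) : ℕ := (univ.filter fun j : U => (i, Sum.inl j) ∈ J).card

/-- Number of alive variables of the right half of the group `i`. -/
def qU (J : Finset (G × (U ⊕ U))) (i : G) : ℕ := (univ.filter fun j : U => (i, Sum.inr j) ∈ J).card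

/-- The exponent of the bound for an alive set. -/
def mx (J : Finset (G × (U ⊕ U))) : ℕ := ∑ i, max (pU J i) (qU J i)

theorem mx_mono {J J' : Finset (G × (U ⊕ U))} (h : J' ⊆ J) : mx J' ≤ mx J := by
  refine Finset.sum_le_sum fun i _ => max_le_max ?_ ?_
  · exact card_le_card fun j hj => by
      simp only [mem_filter, mem_univ, true_and] at hj ⊢
      exact h hj
  · exact card_le_card fun j hj => by
      simp only [mem_filter, mem_univ, true_and] at hj ⊢
      exact h hj

theorem exists_TT {n : ℕ} {w : Fin n → (G × (U ⊕ U) → Bool)} (hw : Ev n w)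
    (J : Finset (G × (U ⊕ U))) (y : G × (U ⊕ U) → Bool) (hy : ∀ l, ∀ v, v ∉ J → w l v = y v) :
    ∃ t : G → Fin n → (Fin n → ZMod 2), ∀ v, col w v ∈ TT t J y v := by
  choose t ht using fun i : G => exists_span (Submodule.span (ZMod 2)
    (Set.range fun j : U => col w (i, Sum.inl j)))
  refine ⟨t, fun v => ?_⟩
  unfold TT
  by_cases hv : v ∈ J
  · rw [if_pos hv]
    rcases v with ⟨i, j | k⟩
    · simp only [Sum.elim_inl]
      rw [mem_pts, ht]
      exact Submodule.subset_span ⟨j, rfl⟩
    · simp only [Sum.elim_inr]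
      rw [mem_pts, ht, LinearMap.BilinForm.mem_orthogonal_iff]
      intro u hu
      refine Submodule.span_induction (p := fun u _ => dotF n u (col w (i, Sum.inr k)) = 0)
        ?_ ?_ ?_ ?_ hu
      · rintro _ ⟨j, rfl⟩
        exact dot_col hw i j k
      · simp
      · intro a b _ _ ha hb
        rw [map_add, LinearMap.add_apply, ha, hb, add_zero]
      · intro c a _ ha
        rw [map_smul, LinearMap.smul_apply, ha, smul_zero]
  · rw [if_neg hv, mem_singleton]
    funext l
    rw [col, hy l v hv]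

theorem pow_mul_pow_le {a b M p q : ℕ} (ha : 1 ≤ a) (hb : 1 ≤ b) (h : a * b = M) :
    a ^ p * b ^ q ≤ M ^ max p q := by
  rw [← h, mul_pow]
  exact Nat.mul_le_mul (Nat.pow_le_pow_right ha (le_max_left _ _))
    (Nat.pow_le_pow_right hb (le_max_right _ _))

theorem prod_card_TT {n : ℕ} (t : G → Fin n → (Fin n → ZMod 2)) (J : Finset (G × (U ⊕ U)))
    (y : G × (U ⊕ U) → Bool) : ∏ v, (TT t J y v).card ≤ 2 ^ (n * mx J) := by
  classical
  rw [Fintype.prod_prod_type, mx, mul_sum, ← prod_pow_eq_pow_sum]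
  refine prod_le_prod (fun _ _ => Nat.zero_le _) fun i _ => ?_
  rw [Fintype.prod_sum_type]
  have h1 : ∏ j : U, (TT t J y (i, Sum.inl j)).card =
      (pts (Submodule.span (ZMod 2) (Set.range (t i)))).card ^ pU J i := by
    have : ∀ j : U, (TT t J y (i, Sum.inl j)).card = if (i, Sum.inl j) ∈ J then
        (pts (Submodule.span (ZMod 2) (Set.range (t i)))).card else 1 := by
      intro j
      unfold TT
      split_ifs <;> simp
    simp only [this]
    rw [prod_ite, prod_const, prod_const_one, mul_one, pU]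
  have h2 : ∏ j : U, (TT t J y (i, Sum.inr j)).card =
      (pts ((dotF n).orthogonal (Submodule.span (ZMod 2) (Set.range (t i))))).card ^ qU J i := by
    have : ∀ j : U, (TT t J y (i, Sum.inr j)).card = if (i, Sum.inr j) ∈ J then
        (pts ((dotF n).orthogonal (Submodule.span (ZMod 2) (Set.range (t i))))).card else 1 := by
      intro j
      unfold TT
      split_ifs <;> simp
    simp only [this]
    rw [prod_ite, prod_const, prod_const_one, mul_one, qU]
  rw [h1, h2, pow_mul]
  refine pow_mul_pow_le ?_ ?_ (card_pts_mul _)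
  · rw [card_pts]; exact Nat.one_le_two_pow
  · rw [card_pts]; exact Nat.one_le_two_pow

open Classical in
theorem card_Ev_le (n : ℕ) (J : Finset (G × (U ⊕ U))) (y : G × (U ⊕ U) → Bool)
    (S : Finset (G × (U ⊕ U) → Bool)) (hS : ∀ z ∈ S, ∀ v, v ∉ J → z v = y v) :
    ((Fintype.piFinset fun _ : Fin n => S).filter (Ev n)).card ≤
      2 ^ (n * mx J + Fintype.card G * n ^ 2) := by
  have h1 : ((Fintype.piFinset fun _ : Fin n => S).filter (Ev n)).image col ⊆
      (univ : Finset (G → Fin n → (Fin n → ZMod 2))).biUnion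
        fun t => Fintype.piFinset (TT t J y) := by
    intro c hc
    obtain ⟨w, hw, rfl⟩ := mem_image.1 hc
    rw [mem_filter, Fintype.mem_piFinset] at hw
    obtain ⟨t, ht⟩ := exists_TT hw.2 J y fun l v hv => hS _ (hw.1 l) v hv
    exact mem_biUnion.2 ⟨t, mem_univ _, Fintype.mem_piFinset.2 ht⟩
  rw [← card_image_of_injective _ col_injective]
  refine (card_le_card h1).trans (card_biUnion_le.trans ?_)
  have h2 : ∀ t ∈ (univ : Finset (G → Fin n → (Fin n → ZMod 2))),
      (Fintype.piFinset (TT t J y)).card ≤ 2 ^ (n * mx J) := by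
    intro t _
    rw [Fintype.card_piFinset]
    exact prod_card_TT t J y
  refine (sum_le_card_nsmul _ _ _ h2).trans (le_of_eq ?_)
  rw [card_univ, smul_eq_mul, Fintype.card_pi, prod_const, card_univ, Fintype.card_pi, prod_const,
    Fintype.card_pi, prod_const, card_univ, ZMod.card, Fintype.card_fin, ← pow_mul, ← pow_mul,
    ← pow_add]
  congr 1
  ring

/-- **Moment bound**. -/
theorem moment_le (n : ℕ) (J : Finset (G × (U ⊕ U))) (y : G × (U ⊕ U) → Bool)
    (S : Finset (G × (U ⊕ U) → Bool)) (hS : ∀ z ∈ S, ∀ v, v ∉ J → z v = y v) :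
    ∑ a : G × U × U → Bool, (∑ z ∈ S, hB a z) ^ n ≤
      2 ^ Fintype.card (G × U × U) * 2 ^ (n * mx J + Fintype.card G * n ^ 2) := by
  classical
  rw [moment_eq]
  have := card_Ev_le n J y S hS
  gcongr
  exact_mod_cast this

/-- **Good seed**: for every finite family of fewer than `2 ^ (n * Q)` pairs `(J, S)`, `S` a set of
points of a subcube with alive set `J`, some seed has small sums over all the sets `S`. -/
theorem good_seed (n Q : ℕ) (hn : Even n) (FF : Finset (Finset (G × (U ⊕ U)) ×
    Finset (G × (U ⊕ U) → Bool)))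
    (hFF : ∀ p ∈ FF, ∃ y : G × (U ⊕ U) → Bool, ∀ z ∈ p.2, ∀ v, v ∉ p.1 → z v = y v)
    (hcard : FF.card < 2 ^ (n * Q)) :
    ∃ a : G × U × U → Bool, ∀ p ∈ FF,
      |∑ z ∈ p.2, hB a z| ≤ 2 ^ (mx p.1 + Fintype.card G * n + Q) := by
  classical
  by_contra hcon
  push Not at hcon
  have hn0 : FF.Nonempty := by
    obtain ⟨p, hp, -⟩ := hcon fun _ => false
    exact ⟨p, hp⟩
  set T : Finset (G × (U ⊕ U)) × Finset (G × (U ⊕ U) → Bool) → ℝ :=
    fun p => 2 ^ (mx p.1 + Fintype.card G * n + Q) with hT
  have hTpos : ∀ p, 0 < T p := fun p => by rw [hT]; positivity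
  have h1 : ∀ a : G × U × U → Bool, (1 : ℝ) ≤
      ∑ p ∈ FF, (∑ z ∈ p.2, hB a z) ^ n / T p ^ n := by
    intro a
    obtain ⟨p, hp, hlt⟩ := hcon a
    have h2 : (1 : ℝ) ≤ (∑ z ∈ p.2, hB a z) ^ n / T p ^ n := by
      rw [one_le_div (pow_pos (hTpos p) n), ← hn.pow_abs (∑ z ∈ p.2, hB a z)]
      exact pow_le_pow_left₀ (hTpos p).le hlt.le n
    refine h2.trans (single_le_sum (f := fun p => (∑ z ∈ p.2, hB a z) ^ n / T p ^ n)
      (fun p _ => ?_) hp)
    exact div_nonneg (hn.pow_nonneg _) (pow_nonneg (hTpos p).le n)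
  have h3 : (2 : ℝ) ^ Fintype.card (G × U × U) ≤
      ∑ a : G × U × U → Bool, ∑ p ∈ FF, (∑ z ∈ p.2, hB a z) ^ n / T p ^ n := by
    calc (2 : ℝ) ^ Fintype.card (G × U × U) = ∑ _a : G × U × U → Bool, (1 : ℝ) := by
          rw [sum_const, card_univ, Fintype.card_pi, prod_const, Fintype.card_bool, card_univ,
            nsmul_eq_mul, mul_one]
          push_cast
          rfl
      _ ≤ _ := sum_le_sum fun a _ => h1 a
  rw [sum_comm] at h3
  have h4 : ∀ p ∈ FF, ∑ a : G × U × U → Bool, (∑ z ∈ p.2, hB a z) ^ n / T p ^ n ≤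
      2 ^ Fintype.card (G × U × U) / 2 ^ (n * Q) := by
    intro p hp
    obtain ⟨y, hy⟩ := hFF p hp
    rw [← sum_div, div_le_div_iff₀ (pow_pos (hTpos p) n) (by positivity)]
    have h5 := moment_le n p.1 y p.2 hy
    have h6 : T p ^ n = 2 ^ (n * mx p.1 + Fintype.card G * n ^ 2) * 2 ^ (n * Q) := by
      rw [hT]
      simp only
      rw [← pow_mul, ← pow_add]
      congr 1
      ring
    rw [h6]
    calc _ ≤ 2 ^ Fintype.card (G × U × U) * 2 ^ (n * mx p.1 + Fintype.card G * n ^ 2) *
          2 ^ (n * Q) := mul_le_mul_of_nonneg_right h5 (by positivity)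
      _ = _ := by ring
  have h7 := h3.trans (sum_le_card_nsmul _ _ _ h4)
  rw [nsmul_eq_mul, ← mul_div_assoc, le_div_iff₀ (by positivity)] at h7
  have h8 : (FF.card : ℝ) < 2 ^ (n * Q) := by exact_mod_cast hcard
  have h9 : (0 : ℝ) < 2 ^ Fintype.card (G × U × U) := by positivity
  nlinarith

end

end Vale.Agent.P336.Moment
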