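import Vale.Agent.P336.H887.Moment

/-!
# P336: the average of the moment bound over the alive sets
-/

set_option linter.unusedSectionVars false

namespace Vale.Agent.P336.Moment

open Finset

noncomputable section

variable {G U : Type} [Fintype G] [DecidableEq G] [Fintype U] [DecidableEq U]

open Classical in
/-- An alive set is a pair of alive sets in each group. -/
def splitE : Finset (G × (U ⊕ U)) ≃ (G → Finset U × Finset U) where
  toFun J i := (univ.filter fun j => (i, Sum.inl j) ∈ J, univ.filter fun j => (i, Sum.inr j) ∈ J)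
  invFun c := univ.filter fun v => Sum.elim (fun j => j ∈ (c v.1).1) (fun j => j ∈ (c v.1).2) v.2
  left_inv J := by
    ext ⟨i, j | j⟩ <;> simp
  right_inv c := by
    funext i
    refine Prod.ext ?_ ?_ <;> ext j <;> simp

theorem card_eq_sum (J : Finset (G × (U ⊕ U))) : J.card = ∑ i, (pU J i + qU J i) := by
  have h1 : J.card = ∑ v : G × (U ⊕ U), if v ∈ J then 1 else 0 := by
    rw [sum_ite_mem, univ_inter, sum_const, smul_eq_mul, mul_one]
  rw [h1, Fintype.sum_prod_type]
  refine sum_congr rfl fun i _ => ?_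
  rw [Fintype.sum_sum_type, pU, qU, card_filter, card_filter]

theorem sum_half (X : Type) [Fintype X] [DecidableEq X] :
    ∑ P : Finset X, (1 / 2 : ℝ) ^ P.card = (3 / 2) ^ Fintype.card X := by
  have h := Finset.sum_pow_mul_eq_add_pow (1 / 2 : ℝ) 1 (univ : Finset X)
  rw [powerset_univ] at h
  simp only [one_pow, mul_one] at h
  rw [h, card_univ]
  norm_num

theorem half_min_le (p q : ℕ) :
    (1 / 2 : ℝ) ^ (p + q) * 2 ^ max p q ≤ (1 / 2) ^ p + (1 / 2) ^ q := by
  have h0 : ∀ n : ℕ, (1 / 2 : ℝ) ^ n * 2 ^ n = 1 := fun n => by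
    rw [← mul_pow]; norm_num
  have hp : (0 : ℝ) < (1 / 2) ^ p := by positivity
  have hq : (0 : ℝ) < (1 / 2) ^ q := by positivity
  rcases le_total p q with h | h
  · rw [max_eq_right h, pow_add, mul_assoc, h0, mul_one]
    linarith
  · rw [max_eq_left h, pow_add, mul_comm ((1 / 2 : ℝ) ^ p), mul_assoc, h0, mul_one]
    linarith

/-- **Average over the alive sets**. -/
theorem sum_mx_le :
    ∑ J : Finset (G × (U ⊕ U)), (1 / 2 : ℝ) ^ J.card * 2 ^ mx J ≤
      (2 * 3 ^ Fintype.card U) ^ Fintype.card G := by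
  have h1 : ∀ J : Finset (G × (U ⊕ U)), (1 / 2 : ℝ) ^ J.card * 2 ^ mx J ≤
      ∏ i, ((1 / 2 : ℝ) ^ ((splitE J i).1).card + (1 / 2) ^ ((splitE J i).2).card) := by
    intro J
    rw [card_eq_sum, mx, ← prod_pow_eq_pow_sum, ← prod_pow_eq_pow_sum, ← prod_mul_distrib]
    exact prod_le_prod (fun _ _ => by positivity) fun i _ => half_min_le _ _
  refine (sum_le_sum fun J _ => h1 J).trans (le_of_eq ?_)
  rw [splitE.sum_comp fun c : G → Finset U × Finset U =>
    ∏ i, ((1 / 2 : ℝ) ^ ((c i).1).card + (1 / 2) ^ ((c i).2).card)]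
  have h2 := Finset.prod_univ_sum (fun _ : G => (univ : Finset (Finset U × Finset U)))
    (fun _ c => ((1 / 2 : ℝ) ^ (c.1).card + (1 / 2) ^ (c.2).card))
  rw [Fintype.piFinset_univ] at h2
  rw [← h2, prod_const, card_univ]
  congr 1
  rw [Fintype.sum_prod_type]
  simp only [sum_add_distrib, sum_const, sum_half, card_univ, Fintype.card_finset, nsmul_eq_mul,
    ← mul_sum]
  push_cast
  rw [← mul_pow, two_mul]
  norm_num
  ring

end

end Vale.Agent.P336.Moment
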